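import Vale.Agent.P024.M4.Spec

/-!
Complex conjugations.
-/

namespace Vale.Agent.P024.H252

open Vale.Agent.P024.M4

section

variable {E : Type*} [Field E] [CharZero E]

/-- An embedding in the complex numbers has a complex conjugation. -/
theorem exists_conj [IsGalois ℚ E] (φ : E →+* ℂ) :
    ∃ c : E ≃ₐ[ℚ] E, ∀ x, φ (c x) = (starRingEnd ℂ) (φ x) := by
  let _ : Algebra E ℂ := φ.toAlgebra
  have : IsScalarTower ℚ E ℂ := IsScalarTower.of_algebraMap_eq fun r => by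
    rw [eq_ratCast, eq_ratCast, map_ratCast]
  let ψ : E →ₐ[ℚ] ℂ :=
    { toRingHom := (starRingEnd ℂ).comp φ
      commutes' := fun r => by
        rw [eq_ratCast, eq_ratCast]
        exact map_ratCast ((starRingEnd ℂ).comp φ) r }
  obtain ⟨c, hc⟩ := (Normal.algHomEquivAut ℚ ℂ E).symm.surjective ψ
  exact ⟨c, fun x => DFunLike.congr_fun hc x⟩

theorem exists_emb [Algebra.IsAlgebraic ℚ E] : Nonempty (E →+* ℂ) := by
  let Φ : E →ₐ[ℚ] ℂ := IsAlgClosed.lift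
  exact ⟨Φ.toRingHom⟩

theorem isCC_conj {c : E ≃ₐ[ℚ] E} (h : IsCC c) (σ : E ≃ₐ[ℚ] E) : IsCC (σ * c * σ⁻¹) := by
  obtain ⟨φ, hφ⟩ := h
  refine ⟨φ.comp (σ⁻¹ : E ≃ₐ[ℚ] E).toRingEquiv.toRingHom, fun x => ?_⟩
  change φ (σ⁻¹ ((σ * c * σ⁻¹) x)) = (starRingEnd ℂ) (φ (σ⁻¹ x))
  rw [← hφ, ← AlgEquiv.mul_apply]
  congr 1
  rw [← AlgEquiv.mul_apply]
  congr 1
  group

theorem cc_sq (hE : SolvablyClosed E) {c : E ≃ₐ[ℚ] E} (h : IsCC c) : c * c = 1 ∧ c ≠ 1 := by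
  obtain ⟨φ, hφ⟩ := h
  refine ⟨?_, ?_⟩
  · ext x
    apply φ.injective
    rw [AlgEquiv.mul_apply, hφ, hφ, Complex.conj_conj, AlgEquiv.one_apply]
  · rintro rfl
    obtain ⟨y, hy⟩ := hE.exists_root 2 (by norm_num) (-1)
    have h1 := hφ y
    rw [AlgEquiv.one_apply] at h1
    obtain ⟨r, hr⟩ := Complex.conj_eq_iff_real.1 h1.symm
    have h2 : φ y ^ 2 = -1 := by rw [← map_pow, hy, map_neg, map_one]
    rw [hr] at h2
    have h3 : (r ^ 2 : ℝ) = -1 := by exact_mod_cast h2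
    nlinarith [sq_nonneg r]

/-- There are two complex conjugations. -/
theorem cc2 [IsGalois ℚ E] (hE : SolvablyClosed E) :
    ∃ c₁ c₂ : E ≃ₐ[ℚ] E, IsCC c₁ ∧ IsCC c₂ ∧ c₁ ≠ c₂ := by
  obtain ⟨φ⟩ := exists_emb (E := E)
  obtain ⟨c, hc⟩ := exists_conj φ
  obtain ⟨s, hs, hs'⟩ : ∃ s : E, s ^ 2 = 2 ∧ φ s = (Real.sqrt 2 : ℝ) := by
    obtain ⟨s, hs⟩ := hE.exists_root 2 (by norm_num) 2
    have h1 : φ s ^ 2 = ((Real.sqrt 2 : ℝ) : ℂ) ^ 2 := by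
      rw [← map_pow, hs]
      have : ((Real.sqrt 2 ^ 2 : ℝ) : ℂ) = 2 := by
        rw [Real.sq_sqrt (by norm_num)]
        norm_num
      rw [← Complex.ofReal_pow, this, map_ofNat]
    rcases sq_eq_sq_iff_eq_or_eq_neg.1 h1 with h | h
    · exact ⟨s, hs, h⟩
    · exact ⟨-s, by rw [neg_sq, hs], by rw [map_neg, h, neg_neg]⟩
  obtain ⟨t, ht⟩ := hE.exists_root 2 (by norm_num) s
  have hct : c t = t := by
    apply φ.injective
    rw [hc]
    have h1 : φ t ^ 2 = ((Real.sqrt (Real.sqrt 2) : ℝ) : ℂ) ^ 2 := by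
      rw [← map_pow, ht, hs', ← Complex.ofReal_pow, Real.sq_sqrt (Real.sqrt_nonneg 2)]
    rcases sq_eq_sq_iff_eq_or_eq_neg.1 h1 with h | h
    · rw [h, Complex.conj_ofReal]
    · rw [h, map_neg, Complex.conj_ofReal]
  obtain ⟨σ, hσ⟩ : ∃ σ : E ≃ₐ[ℚ] E, σ s ≠ s := by
    by_contra hcon
    push Not at hcon
    have h1 : s ∈ (⊥ : IntermediateField ℚ E) := by
      rw [← InfiniteGalois.fixedField_bot (k := ℚ) (K := E)]
      intro g
      exact hcon g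
    rw [IntermediateField.mem_bot] at h1
    obtain ⟨r, hr⟩ := h1
    have h2 : ((r : ℝ) : ℂ) = (Real.sqrt 2 : ℝ) := by
      rw [← hs', ← hr, eq_ratCast, map_ratCast]
      norm_cast
    have h3 : (r : ℝ) = Real.sqrt 2 := by exact_mod_cast h2
    exact irrational_sqrt_two ⟨r, h3⟩
  have hσs : σ s = -s := by
    have h1 : (σ s) ^ 2 = s ^ 2 := by rw [← map_pow, hs, map_ofNat]
    exact (sq_eq_sq_iff_eq_or_eq_neg.1 h1).resolve_left hσ
  refine ⟨c, σ⁻¹ * c * σ, ⟨φ, hc⟩, ?_, ?_⟩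
  · have := isCC_conj (E := E) ⟨φ, hc⟩ σ⁻¹
    rwa [inv_inv] at this
  · intro heq
    have h1 : σ * c = c * σ := by
      nth_rw 1 [heq]
      group
    have h2 : c (σ t) = σ t := by
      rw [← AlgEquiv.mul_apply, ← h1, AlgEquiv.mul_apply, hct]
    have h3 : φ (σ t) ^ 2 = -((Real.sqrt 2 : ℝ) : ℂ) := by
      rw [← map_pow, ← map_pow, ht, hσs, map_neg, hs']
    have h4 := hc (σ t)
    rw [h2] at h4
    obtain ⟨r, hr⟩ := Complex.conj_eq_iff_real.1 h4.symm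
    rw [hr] at h3
    have h5 : r ^ 2 = -Real.sqrt 2 := by exact_mod_cast h3
    have h6 : 0 < Real.sqrt 2 := Real.sqrt_pos.2 (by norm_num)
    nlinarith [sq_nonneg r]

end

end Vale.Agent.P024.H252
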