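import Vale.Agent.P024.M4.Spec
import Vale.Agent.P024.H114.Glue

/-!
A character which is unramified and trivial on a Frobenius element is trivial on the decomposition
group.
-/

namespace Vale.Agent.P024.H252

open scoped NumberField
open IsDedekindDomain NumberField Vale.Agent.P024

theorem isOpen_pow {p : ℕ} [hp : Fact p.Prime] (k : ℕ) :
    IsOpen {x : Multiplicative ℤ_[p] | (p : ℤ_[p]) ^ k ∣ Multiplicative.toAdd x} := by
  have h1 : IsOpen {x : ℤ_[p] | (p : ℤ_[p]) ^ k ∣ x} := by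
    have h2 : {x : ℤ_[p] | (p : ℤ_[p]) ^ k ∣ x} =
        Metric.ball (0 : ℤ_[p]) ((p : ℝ) ^ (-(k : ℤ) + 1)) := by
      ext x
      rw [Set.mem_setOf_eq, mem_ball_zero_iff, ← PadicInt.norm_le_pow_iff_norm_lt_pow_add_one,
        PadicInt.norm_le_pow_iff_mem_span_pow, Ideal.mem_span_singleton]
    rw [h2]
    exact Metric.isOpen_ball
  exact h1.preimage continuous_toAdd

theorem eq_one_of_pow {p : ℕ} [hp : Fact p.Prime] (x : Multiplicative ℤ_[p])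
    (h : ∀ k : ℕ, (p : ℤ_[p]) ^ k ∣ Multiplicative.toAdd x) : x = 1 := by
  have h1 : Multiplicative.toAdd x = 0 := by
    by_contra hne
    obtain ⟨n, hn⟩ : ∃ n : ℕ, ‖Multiplicative.toAdd x‖ > (p : ℝ) ^ (-(n : ℤ)) := by
      obtain ⟨n, hn⟩ := PadicInt.exists_pow_neg_lt p (norm_pos_iff.2 hne)
      exact ⟨n, hn⟩
    have h2 := (PadicInt.norm_le_pow_iff_mem_span_pow (Multiplicative.toAdd x) n).2
      (Ideal.mem_span_singleton.2 (h n))
    exact absurd h2 (not_le.2 hn)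
  exact Multiplicative.toAdd.injective h1

section

variable {E : Type*} [Field E] [CharZero E] [IsGalois ℚ E]

theorem stab_trivial {p : ℕ} [hp : Fact p.Prime] (V : Subgroup (E ≃ₐ[ℚ] E))
    (hV : IsOpen (V : Set (E ≃ₐ[ℚ] E))) (θ : V →* Multiplicative ℤ_[p]) (hθ : Continuous θ)
    (hunr : M4.UnrOut p θ) (O : ValuationSubring E) (hO : O ≠ ⊤) (hpO : (p : E) ∉ O.nonunits)
    {q : ℕ} (hq : q.Prime) (hqO : (q : E) ∈ O.nonunits) (f : V)
    (hf : Stab O (f : E ≃ₐ[ℚ] E)) (hf' : ActsPow O (f : E ≃ₐ[ℚ] E) q) (h1 : θ f = 1) (y : V)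
    (hy : Stab O (y : E ≃ₐ[ℚ] E)) : θ y = 1 := by
  classical
  have halg : Algebra.IsAlgebraic ℚ E := Normal.toIsAlgebraic
  refine eq_one_of_pow _ fun k => ?_
  set U : Set V := {x | (p : ℤ_[p]) ^ k ∣ Multiplicative.toAdd (θ x)} with hU
  have hUo : IsOpen U := (isOpen_pow k).preimage hθ
  have hU1 : (1 : V) ∈ U := by
    show (p : ℤ_[p]) ^ k ∣ Multiplicative.toAdd (θ 1)
    rw [map_one]
    exact dvd_zero _
  have hUE : IsOpen (Subtype.val '' U : Set (E ≃ₐ[ℚ] E)) := hV.isOpenMap_subtype_val _ hUo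
  have h1E : (1 : E ≃ₐ[ℚ] E) ∈ (Subtype.val '' U : Set (E ≃ₐ[ℚ] E)) := ⟨1, hU1, rfl⟩
  obtain ⟨K, hKfd, hKn, hK⟩ : ∃ K : IntermediateField ℚ E, FiniteDimensional ℚ K ∧ Normal ℚ K ∧
      (K.fixingSubgroup : Set (E ≃ₐ[ℚ] E)) ⊆ Subtype.val '' U := by
    obtain ⟨K, hK1, hK2⟩ := (krullTopology_mem_nhds_one_iff_of_normal ℚ E _).1
      (hUE.mem_nhds h1E)
    exact ⟨K, hK1, hK2.1, hK2.2⟩
  have hNK : NumberField K := NumberField.of_module_finite ℚ K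
  have hbot : NumberField (⊥ : IntermediateField ℚ E) := NumberField.of_module_finite ℚ _
  have hstab : ∀ (g : E ≃ₐ[ℚ] E), ∀ x ∈ K, g x ∈ K := by
    intro g x hx
    have h2 : ((g.restrictNormal K ⟨x, hx⟩ : K) : E) = g x :=
      AlgEquiv.restrictNormal_commutes g K ⟨x, hx⟩
    rw [← h2]
    exact Subtype.property _
  obtain ⟨u, hu⟩ := exists_center (K := (⊥ : IntermediateField ℚ E)) O hO
  have hN : Ideal.absNorm u.asIdeal = q := H114.deg1 _ u O hu hq hqO (f : E ≃ₐ[ℚ] E) hf' (by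
    rw [IntermediateField.mem_fixingSubgroup_iff]
    intro x hx
    rw [IntermediateField.mem_bot] at hx
    obtain ⟨r, rfl⟩ := hx
    exact (f : E ≃ₐ[ℚ] E).commutes r)
  obtain ⟨a, δ, hδ, hδK, hι⟩ := exists_decomp O hO ⊥ K bot_le u hu (f : E ≃ₐ[ℚ] E)
    (y : E ≃ₐ[ℚ] E) hf (by rwa [hN]) hy (by
      intro x hx
      rw [IntermediateField.mem_bot] at hx
      obtain ⟨r, rfl⟩ := hx
      exact (y : E ≃ₐ[ℚ] E).commutes r) (hstab _) (hstab _)
  obtain ⟨δ', hδU, hδ'⟩ := hK (show δ ∈ (K.fixingSubgroup : Set (E ≃ₐ[ℚ] E)) by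
    rw [SetLike.mem_coe, IntermediateField.mem_fixingSubgroup_iff]
    exact hδK)
  have hιV : ((y * (f ^ a)⁻¹ * δ'⁻¹ : V) : E ≃ₐ[ℚ] E) = (y : E ≃ₐ[ℚ] E) * ((f : E ≃ₐ[ℚ] E) ^ a)⁻¹ * δ⁻¹ := by
    rw [← hδ']
    push_cast
    rfl
  have h2 : θ (y * (f ^ a)⁻¹ * δ'⁻¹) = 1 := by
    refine hunr O hO hpO _ ?_ ?_
    · rw [hιV]
      exact (hy.mul (hf.pow a).inv).mul hδ.inv
    · rw [hιV]
      exact hι
  rw [map_mul, map_mul, map_inv, map_inv, map_pow, h1, one_pow, inv_one, mul_one,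
    mul_inv_eq_one] at h2
  rw [h2]
  exact hδU

end

end Vale.Agent.P024.H252
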